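import Vale.Agent.P088.MathlibUsed

/-!
# P088-EYM: the elementary statement, compact form
-/

open Manifold MeasureTheory Set
open scoped ContDiff Matrix

noncomputable section

namespace Vale.Agent.P088.B

/-- Points of `ℝ^n`. -/
abbrev V (n : ℕ) := Fin n → ℝ

variable {n N : ℕ} {K : Type*} [RCLike K]

/-- The partial derivative `∂_j f (y)` on the half-space `{y | 0 ≤ y 0}` (one-sided if `j = 0` and
`y 0 = 0`). -/
def dj (f : V n → K) (y : V n) (j : Fin n) : K :=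
  derivWithin (fun t => f (Function.update y j t)) {t | j.1 = 0 → 0 ≤ t} (y j)

/-- The entrywise partial derivative `∂_i F` of a matrix valued function. -/
def dM (F : V n → Matrix (Fin N) (Fin N) K) (y : V n) (i : Fin n) : Matrix (Fin N) (Fin N) K :=
  fun a b => dj (fun z => F z a b) y i

/-- The curvature `F_{ij} = ∂_i A_j - ∂_j A_i + [A_i, A_j]`. -/
def curv (A : Fin n → V n → Matrix (Fin N) (Fin N) K) (i j : Fin n) (y : V n) :
    Matrix (Fin N) (Fin N) K :=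
  dM (A j) y i - dM (A i) y j + ⁅A i y, A j y⁆

/-- The Christoffel symbols `Γ^k_{ij} = ½ g^{kl} (∂_i g_{lj} + ∂_j g_{li} - ∂_l g_{ij})`. -/
def chris (g : V n → Matrix (Fin n) (Fin n) ℝ) (k i j : Fin n) (y : V n) : ℝ :=
  2⁻¹ * ∑ l, (dM g y i l j + dM g y j l i - dM g y l i j) * (g y)⁻¹ k l

/-- At the point `y`: `R = κ g + α T + β (tr_g T) g`, where `F` is the curvature of `A`,
`T_{jk} = - g^{ab} tr (F_{ja} F_{kb})` and `R` is the Ricci tensor,
`R_{jk} = ∂_i Γ^i_{jk} - ∂_j Γ^i_{ik} + Γ^i_{il} Γ^l_{jk} - Γ^i_{jl} Γ^l_{ik}`; and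
`d_A^* F = 0`, that is
`g^{ij} (∂_i F_{jk} + [A_i, F_{jk}] - Γ^l_{ij} F_{lk} - Γ^l_{ik} F_{jl}) = 0`. -/
def Eqs (κ α β : ℝ) (g : V n → Matrix (Fin n) (Fin n) ℝ)
    (A : Fin n → V n → Matrix (Fin N) (Fin N) ℂ) (y : V n) : Prop :=
  let F := curv A
  let T : Matrix (Fin n) (Fin n) ℝ := fun j k =>
    -∑ a, ∑ b, (F j a y * F k b y).trace.re * (g y)⁻¹ a b
  let R : Matrix (Fin n) (Fin n) ℝ := fun j k =>
    ∑ i, curv (fun a z b c => chris g b a c z) i j y i k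
  R = κ • g y + α • T + (β * ((g y)⁻¹ * T).trace) • g y ∧
  ∀ k, ∑ i, ∑ j, (g y)⁻¹ i j • (dM (F j k) y i + ⁅A i y, F j k y⁆ -
    ∑ l, (chris g l i j y • F l k y + chris g l i k y • F j l y)) = 0

universe u

/-- Topology and charts of a manifold: the coordinates of `x` in the chart at `p` and the domain
of the chart at `p`; smooth functions on a set. -/
structure At (n : ℕ) (M : Type u) where
  top : TopologicalSpace M
  ch : M → M → V n
  src : M → Set M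
  sm : Set M → (M → ℂ) → Prop

/-- The topology, the charts and the smooth functions of `M`. -/
def at_ (n : ℕ) [NeZero n] (M : Type u) [t : TopologicalSpace M]
    [ChartedSpace (EuclideanHalfSpace n) M] : At n M :=
  ⟨t, fun p x => (chartAt (EuclideanHalfSpace n) p x).1,
    fun p => (chartAt (EuclideanHalfSpace n) p).source,
    fun s u => ContMDiffOn (𝓡∂ n) 𝓘(ℝ, ℂ) ∞ u s⟩

variable {M : Type u} (Z : At n M)

/-- The point in the domain of the chart at `p` that has coordinates `y`. -/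
def pt (p : M) (y : V n) : M :=
  haveI : Nonempty M := ⟨p⟩
  Function.invFunOn (Z.ch p) (Z.src p) y

/-- The Jacobian matrix at `x` of `Φ`, in the charts at `p` and at `q`. -/
def jac (Φ : M → M) (p q x : M) : Matrix (Fin n) (Fin n) ℝ := fun i j =>
  dj (fun y => Z.ch q (Φ (pt Z p y)) i) (Z.ch p x) j

/-- The matrix in the chart at `p` of the bilinear form with matrix `g x` in the chart at `x`. -/
def gch (g : M → Matrix (Fin n) (Fin n) ℝ) (p : M) (y : V n) : Matrix (Fin n) (Fin n) ℝ :=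
  let x := pt Z p y
  (jac Z id p x x)ᵀ * g x * jac Z id p x x

/-- The coefficients in the chart at `p` of the form with coefficients `A x i` in the chart at
`x`. -/
def ach (A : M → Fin n → Matrix (Fin N) (Fin N) ℂ) (p : M) (j : Fin n) (y : V n) :
    Matrix (Fin N) (Fin N) ℂ :=
  let x := pt Z p y
  ∑ i, jac Z id p x x i j • A x i

/-- A pair `(g, A)`: a Riemannian metric and a smooth unitary connection `d + A` on `M × ℂ^N`,
smooth up to the boundary. `g x` and `A x i` are the matrix `g_{ij}` and the skew-Hermitian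
coefficient `A_i` at `x`, in the chart at `x`; `vol` is the volume, which is `√(det g_{ij}) dy` in
every chart. -/
structure Pair (N : ℕ) where
  g : M → Matrix (Fin n) (Fin n) ℝ
  A : M → Fin n → Matrix (Fin N) (Fin N) ℂ
  pos : ∀ x, (g x).PosDef ∧ ∀ i, (A x i)ᴴ = -A x i
  smo : ∀ p i j, Z.sm (Z.src p) (fun x => gch Z g p (Z.ch p x) i j) ∧
    ∀ a b, Z.sm (Z.src p) (fun x => ach Z A p i (Z.ch p x) a b)
  vol : @Measure M (@borel M Z.top)
  isVol : ∀ p s, MeasurableSet[@borel M Z.top] s → s ⊆ Z.src p →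
    vol s = ∫⁻ y, (Z.ch p '' s).indicator (fun y => ENNReal.ofReal √(gch Z g p y).det) y

variable {Z}

/-- In every chart: `Ric = κ g + α T + β (tr_g T) g`, and `A` is a Yang-Mills connection,
`d_A^* F_A = 0`. For `α = β = 0`: `g` is an Einstein metric. -/
def EYM (κ α β : ℝ) (P : Pair Z N) : Prop :=
  ∀ p, ∀ x ∈ Z.src p, Eqs κ α β (gch Z P.g p) (ach Z P.A p) (Z.ch p x)

/-- `∫_M ⟨d_A u, d_A v⟩_g dV_g`, with `⟨d_A u, d_A v⟩_g = ∑ g^{ij} ⟨(d_A u)_i, (d_A v)_j⟩` and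
`(d_A u)_i = ∂_i u + A_i u` at `x`, in the chart at `x`. -/
def energy (P : Pair Z N) (u v : M → Fin N → ℂ) : ℂ :=
  let D : (M → Fin N → ℂ) → M → Matrix (Fin n) (Fin N) ℂ := fun u x i a =>
    dj (fun y => u (pt Z x y) a) (Z.ch x x) i + (P.A x i *ᵥ u x) a
  ∫ x, ((D u x)ᴴ * (P.g x)⁻¹.map Complex.ofReal * D v x).trace ∂P.vol

variable (Z)

/-- `u : M → ℂ^N` is smooth. -/
def Sm (u : M → Fin N → ℂ) : Prop := ∀ a, Z.sm univ (fun x => u x a)

/-- The boundary `∂M`. -/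
def bd : Set M := {x | ∀ i : Fin n, i.1 = 0 → Z.ch x x i = 0}

variable {Z}

/-- `u` is smooth, `u = f` on `∂M` and `d_A^* d_A u = 0` in `M`. -/
def Harm (P : Pair Z N) (f u : M → Fin N → ℂ) : Prop :=
  Sm Z u ∧ (∀ x ∈ bd Z, u x = f x) ∧
    ∀ φ, Sm Z φ → (∀ x ∈ bd Z, ∀ a, φ x a = 0) → energy P u φ = 0

variable (Z) in
/-- `f ∈ C_c^∞(Γ; ℂ^N)`, given as the restriction to `∂M` of a smooth function on `M`. -/
def Data (Γ : Set M) (f : M → Fin N → ℂ) : Prop :=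
  Sm Z f ∧ @closure M Z.top {x ∈ bd Z | ∃ a, f x a ≠ 0} ⊆ Γ

/-- The data on `Γ` of `(g₁, A₁)` and `(g₂, A₂)` are equal: for all `f, h ∈ C_c^∞(Γ; ℂ^N)`,
`∫ ⟨d_{A₁} u_f, d_{A₁} u_h⟩ dV_{g₁} = ∫ ⟨d_{A₂} u_f, d_{A₂} u_h⟩ dV_{g₂}`, where `u_f, u_h` are
the solutions of the two Dirichlet problems. -/
def SameData (Γ : Set M) (P Q : Pair Z N) : Prop :=
  ∀ f h, Data Z Γ f → Data Z Γ h → ∃ u v u' v',
    Harm P f u ∧ Harm P h v ∧ Harm Q f u' ∧ Harm Q h v' ∧ energy P u v = energy Q u' v'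

variable (Z) in
/-- `Φ : M → M` is smooth: it is continuous and its coordinates are smooth functions. -/
def SmMap (Φ : M → M) : Prop :=
  @Continuous M M Z.top Z.top Φ ∧ ∀ p i, Z.sm (Φ ⁻¹' Z.src p) (fun x => Z.ch p (Φ x) i)

/-- The conclusion of Q1: `g₂ = Φ^* g₁` and `A₂ = U⁻¹ (Φ^* A₁) U + U⁻¹ dU` for a diffeomorphism
`Φ` of `M` (with inverse `Ψ`) and a smooth `U : M → U(N)` with `Φ = Id`, `U = I` on `Γ`. -/
def Related (Γ : Set M) (P Q : Pair Z N) : Prop :=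
  ∃ (Φ Ψ : M → M) (U : M → Matrix (Fin N) (Fin N) ℂ),
    SmMap Z Φ ∧ SmMap Z Ψ ∧ (∀ x, Ψ (Φ x) = x ∧ Φ (Ψ x) = x) ∧
    (∀ a, Sm Z (fun x => U x a)) ∧ (∀ x, (U x)ᴴ * U x = 1) ∧
    (∀ x ∈ Γ, Φ x = x ∧ U x = 1) ∧ ∀ x, let J := jac Z Φ x (Φ x) x
    Q.g x = Jᵀ * P.g (Φ x) * J ∧ ∀ j, Q.A x j = (U x)ᴴ *
      ((∑ i, J i j • P.A (Φ x) i) * U x + dM (fun y => U (pt Z x y)) (Z.ch x x) j)

end Vale.Agent.P088.B
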